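import Vale.Agent.P150.Rate.Main

/-!
# Polynomial slowdown of SK heat-bath dynamics at the critical temperature
-/

open MeasureTheory
open Vale.Agent.P150

namespace Vale.Agent.Results.P150.CriticalPolynomialSlowdown

/-- At `β = 1`, for every `c < 1/20`, with probability tending to one the spectral gap is at most
`n ^ (-c)` and the total variation distance from some start exceeds `1/4` up to time `n ^ c`. -/
theorem result : ∀ c η : ℝ, c < 1 / 20 → 0 < η → ∃ n₀ : ℕ, ∀ n ≥ n₀,
    ENNReal.ofReal (1 - η) ≤ disorder n {g | gap n 1 g ≤ (n : ℝ) ^ (-c) ∧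
      ∀ t, 0 ≤ t → t ≤ (n : ℝ) ^ c → ∃ x, 1 / 4 < tvDist n 1 g t x} :=
  fun _ _ hc hη => Rate.slow_critical hc hη

end Vale.Agent.Results.P150.CriticalPolynomialSlowdown
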