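import Vale.Agent.P150.Beyond.Assembly

/-!
# P150: fast mixing up to three fifths, with exact orders
-/

open MeasureTheory
open Vale.Agent.P150

namespace Vale.Agent.Results.P150.FastToThreeFifths

/-- For every fixed `β ∈ [0, 3/5]` the SK heat-bath gap is of order one and the mixing time of order
`log n`; below one half the gap is at least `(1 - 2β)/8`; for every `β` the gap is at most one and the
mixing time at least of order `log n`; all with high probability. -/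
theorem result :
    (∀ β : ℝ, 0 ≤ β → β ≤ 3 / 5 → ∃ a : ℝ, 0 < a ∧ ∃ C : ℝ, 0 < C ∧ ∀ η : ℝ, 0 < η →
      ∃ n₀ : ℕ, ∀ n ≥ n₀,
      ENNReal.ofReal (1 - η) ≤ disorder n {g | a ≤ gap n β g ∧ gap n β g ≤ 1 ∧
        (∀ t ∈ Set.Icc 0 (a * Real.log n), ∃ x, 1 / 4 < tvDist n β g t x) ∧
        ∀ t, C * Real.log n ≤ t → ∀ x, tvDist n β g t x ≤ 1 / 4}) ∧
    (∀ β : ℝ, 0 ≤ β → β < 1 / 2 → ∀ η : ℝ, 0 < η → ∃ n₀ : ℕ, ∀ n ≥ n₀,
      ENNReal.ofReal (1 - η) ≤ disorder n {g | (1 - 2 * β) / 8 ≤ gap n β g ∧ gap n β g ≤ 1}) ∧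
    ∀ β : ℝ, 0 ≤ β → ∃ a : ℝ, 0 < a ∧ ∀ η : ℝ, 0 < η → ∃ n₀ : ℕ, ∀ n ≥ n₀,
      ENNReal.ofReal (1 - η) ≤ disorder n {g | gap n β g ≤ 1 ∧
        ∀ t ∈ Set.Icc 0 (a * Real.log n), ∃ x, 1 / 4 < tvDist n β g t x} :=
  ⟨fun _ h0 h1 => Beyond.fast_to_three_fifths h0 h1, Fast.gap_and_lower.1, Fast.gap_and_lower.2⟩

end Vale.Agent.Results.P150.FastToThreeFifths
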