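import Vale.Agent.P150.Energy

/-!
# P150: no fast mixing at any inverse temperature above one
-/

open MeasureTheory ProbabilityTheory Real
open Vale.Agent.P150

namespace Vale.Agent.Results.P150.SlowBelowCritical

/-- For every `β > 1` and every `η > 0`, with probability at least `1 - η` at every large size, the inverse
gap and the mixing time are at least linear in `n`. -/
theorem result : ∀ β : ℝ, 1 < β → ∀ η : ℝ, 0 < η → ∃ δ : ℝ, 0 < δ ∧ ∃ n₀ : ℕ, ∀ n ≥ n₀,
    ENNReal.ofReal (1 - η) ≤ disorder n {g | gap n β g ≤ 1 / (δ * n) ∧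
      ∀ t ∈ Set.Icc 0 (δ * n), ∃ x, 1 / 4 < tvDist n β g t x} := by
  intro β hβ η hη
  obtain ⟨c, hc, N₀, hN₀⟩ := overlap_tight hβ hη
  obtain ⟨k₀, hk₀⟩ := exists_pow_lt_of_lt_one (show (0 : ℝ) < c / 2 by positivity)
    (show (1 / 2 : ℝ) < 1 by norm_num)
  set k := k₀ + 1 with hk_def
  have hk : (1 / 2 : ℝ) ^ k < c / 2 := by
    have : (1 / 2 : ℝ) ^ k ≤ (1 / 2) ^ k₀ :=
      pow_le_pow_of_le_one (by norm_num) (by norm_num) (by omega)
    linarith
  have hk1 : (1 : ℝ) ≤ k := by exact_mod_cast (show 1 ≤ k by omega)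
  refine ⟨c / (2 * k), by positivity, max N₀ 1, fun n hn => ?_⟩
  have hn0 : 0 < n := lt_of_lt_of_le one_pos (le_trans (le_max_right _ _) hn)
  have hn' : (0 : ℝ) < n := by exact_mod_cast hn0
  set S := {g : Edge n → ℝ | c < overlapSq n β g}
  have hS : MeasurableSet S := measurableSet_lt measurable_const (measurable_overlapSq n β)
  have hp : 1 - η ≤ (stdPi (Edge n)).real S := by
    have h1 := hN₀ n (le_trans (le_max_left _ _) hn)
    have h2 : {g : Edge n → ℝ | overlapSq n β g ≤ c} = Sᶜ := by ext g; simp [S]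
    rw [h2, measureReal_compl hS] at h1
    simp at h1
    linarith
  refine le_trans ?_ (measure_mono (?_ : S ⊆ _))
  · rw [disorder_eq, ← ofReal_measureReal]
    exact ENNReal.ofReal_le_ofReal hp
  · intro g hg
    have hg' : c < overlapSq n β g := hg
    have hδ : c / (2 * k) ≤ c := div_le_self hc.le (by linarith)
    refine ⟨(gap_le hn0 (hc.trans hg')).trans ?_, fun t ht => ?_⟩
    · refine one_div_le_one_div_of_le (by positivity) ?_
      nlinarith [mul_le_mul_of_nonneg_left (hδ.trans hg'.le) hn'.le]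
    · refine tv_gt hn0 hg'.le (by omega) hk ht.1 ?_
      have h2 := mul_le_mul_of_nonneg_left ht.2 (show (0 : ℝ) ≤ k by positivity)
      refine h2.trans (le_of_eq ?_)
      field_simp

end Vale.Agent.Results.P150.SlowBelowCritical
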